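import Vale.Agent.N215C.Final

/-!
# P215: the unrestricted disc embedding conjecture is false
-/

namespace Vale.Agent.Results.P215.A0DiscEmbeddingFails

open Vale.Agent.N215

/-- (1) **The unrestricted disc embedding conjecture is false**: it is not true that for every
connected oriented topological four-manifold all disc embedding data admit pairwise disjoint
embedded discs with the given boundaries.
(2) Strong form: there are a compact such manifold `M` and disc embedding data with one disc `f` and
one sphere `g` such that every continuous disc in `M` with the boundary of `f` has a double point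
loop which is not null-homotopic in `M`. -/
theorem result :
    (¬ ∀ (M : Type) [TopologicalSpace M] [T2Space M] [SecondCountableTopology M]
      [ConnectedSpace M] [ChartedSpace H4 M], IsOriented M →
        ∀ (k : ℕ) (d : Data M disc sph k), d.EmbeddedDiscs) ∧
    ∃ (M : Type) (_ : TopologicalSpace M) (_ : T2Space M) (_ : SecondCountableTopology M)
      (_ : CompactSpace M) (_ : ConnectedSpace M) (_ : ChartedSpace H4 M), IsOriented M ∧
        ∃ d : Data M disc sph 1, d.Essential 0 := by
  obtain ⟨M, i1, i2, i3, i4, i5, i6, ho, d, -, hd⟩ := Mc.compact_example
  exact ⟨fun h => Data.Essential.not_embeddedDiscs (d := d) (i := 0) hd (h M ho 1 d),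
    M, i1, i2, i3, i4, i5, i6, ho, d, hd⟩

end Vale.Agent.Results.P215.A0DiscEmbeddingFails
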